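import Vale.Agent.P144D.I.Defs

/-!
The Gibbs measure with a sign-changing boundary condition in terms of local insertions.
-/

namespace Vale.Agent.P144Z

open Finset Vale.Agent.P144

namespace ISecB

variable {M : ℕ} [NeZero M]

/-- The part of the logarithm of the weight that is attached to the site `y`. -/
noncomputable def en1 (q : Par) (κ : ℝ) (y : Tor M) (n : Tor M × Fin 2 → Bool) : ℝ :=
  (∑ d : Fin 2, if n (y, d) then -κ else 0) +
    ∑ B ∈ potSets q.R, q.μ * q.V B / B.card * spinFn B (I1.see y n)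

theorem wt_exp (q : Par) {κ : ℝ} (hx : q.x = Real.exp (-κ)) (n : Tor M × Fin 2 → Bool) :
    wt 1 q.x n * Real.exp (uint q n) = Real.exp (∑ y, en1 q κ y n) := by
  unfold en1
  rw [sum_add_distrib, Real.exp_add]
  refine congrArg₂ (· * ·) ?_ rfl
  rw [← Fintype.sum_prod_type (fun e : Tor M × Fin 2 => if n e then -κ else 0), Real.exp_sum]
  refine prod_congr rfl fun e _ => ?_
  split_ifs
  · rw [Pi.one_apply, mul_one, hx]
  · rw [Real.exp_zero]

theorem en1_congr {q : Par} {R : ℕ} (hR : q.R ≤ R) (κ : ℝ) (y : Tor M)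
    {n n' : Tor M × Fin 2 → Bool} (h : ∀ e : Tor M × Fin 2, tdist e.1 y ≤ R + 1 → n e = n' e) :
    en1 q κ y n = en1 q κ y n' := by
  unfold en1
  refine congrArg₂ (· + ·) (sum_congr rfl fun d _ => ?_) (sum_congr rfl fun B hB => ?_)
  · rw [h (y, d) (by simp [tdist_self])]
  · refine congrArg _ (R5.spinFn_congr fun e he _ => h (y + prj M e.1, e.2) ?_)
    exact (G.tdist_add_prj_le y e.1).trans ((R5.hull_bd hB he).trans (by omega))

omit [NeZero M] in
theorem abs_en1 {q : Par} (hs : q.Small 1) {κ : ℝ} (h0 : 0 ≤ κ) (h2 : κ ≤ 2) (y : Tor M)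
    (n : Tor M × Fin 2 → Bool) : |en1 q κ y n| ≤ 5 := by
  have h1 : |∑ d : Fin 2, if n (y, d) then -κ else 0| ≤ 4 := by
    rw [Fin.sum_univ_two, abs_le]
    constructor <;> split_ifs <;> linarith
  have h3 : |∑ B ∈ potSets q.R, q.μ * q.V B / B.card * spinFn B (I1.see y n)| ≤ 1 := by
    refine (abs_sum_le_sum_abs _ _).trans (le_trans ?_ hs)
    rw [mul_sum]
    refine sum_le_sum fun B hB => ?_
    have hc : (1 : ℝ) ≤ B.card := by
      exact_mod_cast card_pos.2 ⟨_, (mem_filter.1 hB).2⟩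
    rw [abs_mul, abs_div, abs_mul, Nat.abs_cast]
    exact (mul_le_of_le_one_right (by positivity) (R5.abs_spinFn _ _)).trans
      (div_le_self (by positivity) hc)
  exact (abs_add_le _ _).trans (by linarith)

/-- The outer faces where the two boundary conditions differ. -/
def dif (I : Finset (Tor M)) (b b' : ℤ × ℤ → Bool) (u : Tor M) : Bool :=
  decide (u ∉ I) && xor (b (lft u)) (b' (lft u))

/-- The change of the boundary condition. -/
def chgB (I : Finset (Tor M)) (b b' : ℤ × ℤ → Bool) (σ : Tor M → Bool) (u : Tor M) : Bool :=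
  xor (σ u) (dif I b b' u)

/-- The walls of the true configuration. -/
def tru (I : Finset (Tor M)) (b b' : ℤ × ℤ → Bool) (n : Tor M × Fin 2 → Bool)
    (e : Tor M × Fin 2) : Bool :=
  if e.1 ∈ I ∨ oth e ∈ I then xor (n e) (dom (dif I b b') e) else dom (fun u => b (lft u)) e

variable {I : Finset (Tor M)} {b b' : ℤ × ℤ → Bool}

omit [NeZero M] in
theorem chgB_chgB (σ : Tor M → Bool) : chgB I b b' (chgB I b b' σ) = σ := by
  funext u
  simp [chgB]

omit [NeZero M] in
theorem outB_chgB {σ : Tor M → Bool} : OutB I b (chgB I b b' σ) ↔ OutB I b' σ := by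
  refine forall₂_congr fun u hu => ?_
  simp only [chgB, dif, hu, not_false_eq_true, decide_true, Bool.true_and]
  cases σ u <;> cases b (lft u) <;> cases b' (lft u) <;> simp

omit [NeZero M] in
theorem dom_chgB {σ : Tor M → Bool} (h : OutB I b' σ) :
    dom (chgB I b b' σ) = tru I b b' (nOf I σ) := by
  funext e
  unfold tru
  split_ifs with he
  · have : nOf I σ e = dom σ e := by simp [nOf, he]
    rw [this]
    show xor (xor (σ e.1) (dif I b b' e.1)) (xor (σ (oth e)) (dif I b b' (oth e))) =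
      xor (xor (σ e.1) (σ (oth e))) (xor (dif I b b' e.1) (dif I b b' (oth e)))
    cases σ e.1 <;> cases σ (oth e) <;> cases dif I b b' e.1 <;> cases dif I b b' (oth e) <;> rfl
  · rw [not_or] at he
    have h' := outB_chgB (b := b).2 h
    show xor (chgB I b b' σ e.1) (chgB I b b' σ (oth e)) = xor (b (lft e.1)) (b (lft (oth e)))
    rw [h' _ he.1, h' _ he.2]

theorem wt_nOf (x : ℝ) (σ : Tor M → Bool) : wt (pwI I) x (nOf I σ) = wt 1 x (nOf I σ) := by
  refine prod_congr rfl fun e _ => ?_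
  split_ifs with he
  · have : e.1 ∈ I ∨ oth e ∈ I := by
      simp only [nOf, Bool.and_eq_true, decide_eq_true_eq] at he
      exact he.2
    simp only [Reg.pw, Bool.false_eq_true, if_false, if_pos this, Pi.one_apply]
  · rfl

theorem tdist_oth (e : Tor M × Fin 2) : tdist (oth e) e.1 ≤ 1 := GeoA.tdist_sub_uv _ _

theorem tdist_lft (f : Tor M) (v : ℤ × ℤ) : tdist f (prj M v) ≤ zd (lft f) v := by
  have h := tdist_prj_le (M := M) (lft f) v
  rwa [prj_lft] at h

theorem tdist_eq {u v : ℤ × ℤ} (h : 2 * zd u v < M) : tdist (prj M u) (prj M v) = zd u v := by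
  unfold zd at h
  rw [G.tdist_def, ← G.prj_sub, lft_prj]
  · rfl
  · rw [Prod.fst_sub, Int.abs_eq_natAbs]
    omega
  · rw [Prod.snd_sub, Int.abs_eq_natAbs]
    omega

/-- The correction at the site `y`. -/
noncomputable def cor1 (q : Par) (κ : ℝ) (I : Finset (Tor M)) (b b' : ℤ × ℤ → Bool) (y : Tor M)
    (n : Tor M × Fin 2 → Bool) : ℝ :=
  en1 q κ y (tru I b b' n) - en1 q κ y n

theorem cor1_congr {q : Par} {R : ℕ} (hR : q.R ≤ R) (κ : ℝ) (y : Tor M)
    {n n' : Tor M × Fin 2 → Bool} (h : ∀ e : Tor M × Fin 2, tdist e.1 y ≤ R + 1 → n e = n' e) :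
    cor1 q κ I b b' y n = cor1 q κ I b b' y n' := by
  unfold cor1
  rw [en1_congr hR κ y h, en1_congr (n := tru I b b' n) (n' := tru I b b' n') hR κ y
    fun e he => by unfold tru; rw [h e he]]

theorem cor1_far {q : Par} {R : ℕ} (hR : q.R ≤ R) (κ : ℝ) {y : Tor M}
    (hy : ¬ ∃ u ∈ I, tdist u y ≤ R + 2) (σ : Tor M → Bool) :
    cor1 q κ I b b' y (nOf I σ) = cor1 q κ I b b' y fun _ => false := by
  refine cor1_congr hR κ y fun e he => ?_
  have h1 : e.1 ∉ I := fun h => hy ⟨_, h, by omega⟩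
  have h2 : oth e ∉ I := fun h => hy ⟨_, h, by
    have := tdist_triangle (oth e) e.1 y
    have := tdist_oth e
    omega⟩
  simp [nOf, h1, h2]

theorem cor1_near {q : Par} {R K T k : ℕ} (hR : q.R ≤ R) (κ : ℝ) {Λ : Finset (ℤ × ℤ)}
    {x : Fin k → ℤ × ℤ} {e₀ : Fin k → Fin 4} (hΛ : ∀ v ∈ Λ, zd v 0 ≤ T)
    (hM : 2 * (T + 2 * R + 4) < M) (hb : MkB Λ b b' (2 * R + 4) K x e₀) {y : Tor M}
    (hy : ∃ u ∈ Λ.image (prj M), tdist u y ≤ R + 2)
    (hx : ∀ i, K + R + 2 < tdist y (prj M (x i))) (σ : Tor M → Bool) :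
    cor1 q κ (Λ.image (prj M)) b b' y (nOf (Λ.image (prj M)) σ) = 0 := by
  rw [cor1, sub_eq_zero]
  refine en1_congr hR κ y fun e he => ?_
  have hag : ∀ f : Tor M, tdist f y ≤ R + 2 → b' (lft f) = b (lft f) := fun f hf =>
    hb.agree _ fun i => by
      have h1 := tdist_lft f (x i)
      have h2 := tdist_triangle y f (prj M (x i))
      have h3 := hx i
      rw [tdist_comm y f] at h2
      omega
  have ho : tdist (oth e) y ≤ R + 2 := by
    have := tdist_triangle (oth e) e.1 y
    have := tdist_oth e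
    omega
  unfold tru
  split_ifs with hp
  · have : dom (dif (Λ.image (prj M)) b b') e = false := by
      rw [DH1.dom_eq_false]
      simp only [dif, hag _ ho, hag e.1 (by omega), Bool.xor_self, Bool.and_false]
    rw [this, Bool.xor_false]
  · have h0 : nOf (Λ.image (prj M)) σ e = false := by simp only [nOf, hp, decide_false,
      Bool.and_false]
    rw [h0, DH1.dom_eq_false, ← hag _ ho, ← hag e.1 (by omega)]
    by_contra hne
    rw [not_or] at hp
    obtain ⟨u, hu, huy⟩ := hy
    obtain ⟨u₀, hu₀, rfl⟩ := mem_image.1 hu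
    obtain ⟨f, d⟩ := e
    have hd : zd (lft (f - prj M u₀)) 0 ≤ 2 * R + 3 := by
      rw [GeoA.zd_lft]
      have := tdist_triangle f y (prj M u₀)
      rw [tdist_comm y] at this
      dsimp only at he
      omega
    set w := lft (f - prj M u₀) with hw
    have hf : f = prj M (u₀ + w) := by rw [G.prj_add, hw, G.add_prj_lft]
    have h1 := hΛ u₀ hu₀
    have hl : ∀ c : ℤ × ℤ, zd c 0 ≤ 1 → lft (prj M (u₀ + w - c)) = u₀ + w - c := by
      intro c hc
      simp only [zd, Prod.fst_zero, Prod.snd_zero, sub_zero, max_le_iff] at hc h1 hd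
      refine lft_prj ?_ ?_
      · rw [Prod.fst_sub, Prod.fst_add, Int.abs_eq_natAbs]
        omega
      · rw [Prod.snd_sub, Prod.snd_add, Int.abs_eq_natAbs]
        omega
    have hnear : ∃ u ∈ Λ, zd u (u₀ + w) ≤ 2 * R + 4 := by
      refine ⟨u₀, hu₀, ?_⟩
      simp only [zd, Prod.fst_zero, Prod.snd_zero, sub_zero, max_le_iff, Prod.fst_add,
        Prod.snd_add] at hd ⊢
      omega
    have hout : ∀ c : ℤ × ℤ, prj M (u₀ + w - c) ∉ Λ.image (prj M) → u₀ + w - c ∉ Λ :=
      fun c hc h => hc (mem_image_of_mem _ h)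
    have e0 : f = prj M (u₀ + w - (0, 0)) := by rw [hf]; exact congrArg _ (sub_zero _).symm
    have key : ∃ i, zd (u₀ + w) (x i) ≤ K := by
      fin_cases d
      · have e1 : oth (f, (0 : Fin 2)) = prj M (u₀ + w - (0, 1)) := by
          rw [G.prj_sub, ← hf, ← G.uv_one]
          rfl
        refine hb.far (u₀ + w) 0 ⟨hout (0, 1) (e1 ▸ hp.2), hout (0, 0) (e0 ▸ hp.1)⟩ ?_ hnear
        show b' (u₀ + w - (0, 1)) ≠ b' (u₀ + w - (0, 0))
        rw [← hl (0, 1) (by decide), ← hl (0, 0) (by decide), ← e1, ← e0]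
        exact fun h => hne h.symm
      · have e1 : oth (f, (1 : Fin 2)) = prj M (u₀ + w - (1, 0)) := by
          rw [G.prj_sub, ← hf, ← G.uv_zero]
          rfl
        refine hb.far (u₀ + w) 1 ⟨hout (0, 0) (e0 ▸ hp.1), hout (1, 0) (e1 ▸ hp.2)⟩ ?_ hnear
        show b' (u₀ + w - (0, 0)) ≠ b' (u₀ + w - (1, 0))
        rw [← hl (1, 0) (by decide), ← hl (0, 0) (by decide), ← e1, ← e0]
        exact hne
    obtain ⟨i, hi⟩ := key
    have h2 : tdist f (prj M (x i)) ≤ K := hf ▸ (tdist_prj_le _ _).trans hi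
    have h3 := tdist_triangle y f (prj M (x i))
    have h4 := hx i
    rw [tdist_comm y f] at h3
    dsimp only at he
    omega

open Classical in
theorem gibbs_b {J lam β : ℝ} {q : Par} (hq : UL.Rel J lam β q) {T : ℕ} {Λ : Finset Site}
    (hΛ : ∀ x ∈ Λ, zd x 0 ≤ T) (hM : 4 * (T + q.R + 2) ≤ M) (b : Config) (F : Config → ℝ)
    (hF : ∀ σ σ', (∀ x ∈ Λ, σ x = σ' x) → F σ = F σ') :
    gibbs J lam q.V β (some b) Λ F =
      (∑ s : Tor M → Bool, if OutB (Λ.image (prj M)) b s then F (per M s) * DH1.wT q s else 0) /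
        ∑ s : Tor M → Bool, if OutB (Λ.image (prj M)) b s then DH1.wT q s else 0 := by
  have hx0 : 0 < q.x := hq.x ▸ Real.exp_pos _
  have h := DH1.dlr_out q hq.pot hq.range hq.mu hq.x Λ hΛ hM F hF
    (fun s => if OutB (Λ.image (prj M)) b s then 1 else 0) fun s s' h =>
      if_congr (forall₂_congr fun u hu => by rw [h u hu]) rfl rfl
  have h3 : 0 < ∑ s : Tor M → Bool, if OutB (Λ.image (prj M)) b s then DH1.wT q s else 0 := by
    refine sum_pos' (fun s _ => ?_) ⟨fun u => b (lft u), mem_univ _, ?_⟩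
    · split_ifs
      · exact (DH1.wT_pos hx0 s).le
      · exact le_rfl
    · rw [if_pos (show OutB _ b _ from fun _ _ => rfl)]
      exact DH1.wT_pos hx0 _
  rw [eq_div_iff h3.ne', mul_sum]
  refine Eq.trans ?_ (h.symm.trans ?_)
  · refine sum_congr rfl fun s _ => ?_
    split_ifs with hs
    · rw [one_mul, DH1.gibbs_out (η := per M s) (η' := b) hq.pot Λ F hF fun x hx hx' => ?_]
      have h1 := DH1.seen_le hq.pot hq.range hΛ (y := x) (by simp [hx])
      have h2 : prj M x ∉ Λ.image (prj M) := by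
        rwa [DH1.mem_image_iff (K := T + 2 * (q.R + 1)) (fun x hx => (hΛ x hx).trans (by omega))
          (by omega) h1]
      rw [DH1.zd_le_iff] at h1
      rw [I1.per_eq, hs _ h2, lft_prj (by omega) (by omega)]
    · simp
  · refine sum_congr rfl fun s _ => ?_
    split_ifs <;> simp

end ISecB

open ISecB in
/-- The Gibbs measure with boundary condition `b` in terms of local insertions. -/
theorem secB : SecB := by
  classical
  intro R K
  refine ⟨K + 2 * R + 4, Real.exp (10 * (2 * (K + R + 2 : ℕ) + 1) ^ 2),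
    Real.one_le_exp (by positivity), ?_⟩
  intro J lam β q hq hR h4 h2 hs M _ Λ T k x e b b' hΛ hM ht hsep hb
  have hx := hq.x
  have hκ0 : 0 ≤ 2 * β * J := by
    have : Real.exp (-(2 * β * J)) ≤ Real.exp 0 := by rw [← hx, Real.exp_zero]; linarith
    have := Real.exp_le_exp.1 this
    linarith
  have hκ2 : 2 * β * J ≤ 2 := by
    have h1 : Real.exp (-2) ≤ Real.exp (-(2 * β * J)) := by
      rw [← hx, Real.exp_neg]
      refine le_trans ?_ h4
      rw [one_div]
      refine inv_anti₀ (by norm_num) ?_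
      have h5 := Real.add_one_le_exp (1 : ℝ)
      rw [show (2 : ℝ) = 1 + 1 by norm_num, Real.exp_add]
      nlinarith
    have := Real.exp_le_exp.1 h1
    linarith
  set I := Λ.image (prj M) with hI
  set κ := 2 * β * J
  refine ⟨fun i n => Real.exp (∑ y ∈ ball (prj M (x i)) (K + R + 2), cor1 q κ I b b' y n),
    fun i n n' h => ?_, fun i n => ?_, fun F hF => ?_⟩
  · refine congrArg Real.exp (sum_congr rfl fun y hy => cor1_congr hR κ y fun e' he' => ?_)
    rw [G.mem_ball] at hy
    have h1 := tdist_triangle e'.1 y (prj M (x i))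
    have h3 := tdist_triangle (e'.1 + uv M e'.2) e'.1 (prj M (x i))
    have h5 := tdist_uv e'.1 e'.2
    refine h e' (G.mem_ball.2 ?_) (G.mem_ball.2 ?_)
    · show tdist _ (prj M (x i)) ≤ _
      omega
    · show tdist _ (prj M (x i)) ≤ _
      omega
  · have h1 : |∑ y ∈ ball (prj M (x i)) (K + R + 2), cor1 q κ I b b' y n| ≤
        10 * (2 * (K + R + 2 : ℕ) + 1) ^ 2 := by
      refine (abs_sum_le_sum_abs _ _).trans ((sum_le_card_nsmul _ _ 10 fun y _ => ?_).trans ?_)
      · have h5 := abs_en1 hs hκ0 hκ2 y (tru I b b' n)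
        have h6 := abs_en1 hs hκ0 hκ2 y n
        exact (abs_sub _ _).trans (by linarith)
      · rw [nsmul_eq_mul, mul_comm]
        refine mul_le_mul_of_nonneg_left ?_ (by norm_num)
        exact_mod_cast card_ball_le _ _
    rw [← Real.exp_neg, Real.exp_le_exp, Real.exp_le_exp]
    exact abs_le.1 h1
  · have hxT : ∀ i, zd (x i) 0 ≤ T + 1 := fun i => by
      obtain ⟨c, hc⟩ := (ht i).1
      have h1 := hΛ _ hc
      have h3 : zd (x i) (x i - cn c) ≤ 1 := by
        fin_cases c <;> simp [zd, cn]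
      have := GeoA.zd_tri (x i) (x i - cn c) 0
      omega
    have hdis : ∀ i ∈ (univ : Finset (Fin k)), ∀ i' ∈ (univ : Finset (Fin k)), i ≠ i' →
        Disjoint (ball (prj M (x i)) (K + R + 2)) (ball (prj M (x i')) (K + R + 2)) := by
      intro i _ i' _ hii
      rw [disjoint_left]
      intro y h1 h3
      rw [G.mem_ball] at h1 h3
      have h5 := hsep i i' hii
      have h6 := GeoA.zd_tri (x i) 0 (x i')
      rw [GeoA.zd_comm 0] at h6
      have h7 := hxT i
      have h8 := hxT i'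
      have h9 := tdist_triangle (prj M (x i)) y (prj M (x i'))
      rw [tdist_eq (by omega), tdist_comm _ y] at h9
      omega
    set U := (univ : Finset (Fin k)).biUnion fun i => ball (prj M (x i)) (K + R + 2) with hU
    set c := Real.exp (∑ y ∈ Uᶜ,
      if ∃ u ∈ I, tdist u y ≤ R + 2 then 0 else cor1 q κ I b b' y fun _ => false) with hc
    have hc0 : c ≠ 0 := (Real.exp_pos _).ne'
    have hw : ∀ σ, OutB I b' σ → DH1.wT q (chgB I b b' σ) = c * wJ q I
        (fun i n => Real.exp (∑ y ∈ ball (prj M (x i)) (K + R + 2), cor1 q κ I b b' y n)) σ := by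
      intro σ hσ
      rw [DH1.wT, dom_chgB hσ, wJ, wt_nOf, wt_exp q hx, wt_exp q hx, ← Real.exp_sum,
        ← sum_biUnion hdis, hc, ← Real.exp_add, ← Real.exp_add]
      refine congrArg Real.exp ?_
      have h1 : ∑ y ∈ Uᶜ, (if ∃ u ∈ I, tdist u y ≤ R + 2 then 0 else
          cor1 q κ I b b' y fun _ => false) = ∑ y ∈ Uᶜ, cor1 q κ I b b' y (nOf I σ) := by
        refine sum_congr rfl fun y hy => ?_
        split_ifs with h
        · refine (cor1_near hR κ hΛ (by omega) hb h (fun i => ?_) σ).symm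
          by_contra h3
          exact mem_compl.1 hy (mem_biUnion.2 ⟨i, mem_univ _, G.mem_ball.2 (not_lt.1 h3)⟩)
        · exact (cor1_far hR κ h σ).symm
      have h3 := sum_add_sum_compl U fun y => cor1 q κ I b b' y (nOf I σ)
      rw [h1]
      simp only [cor1, sum_sub_distrib] at h3 ⊢
      linarith
    have hsum : ∀ G : (Tor M → Bool) → ℝ, (∑ s, if OutB I b s then G s else 0) =
        ∑ σ, if OutB I b' σ then G (chgB I b b' σ) else 0 := fun G => by
      rw [← Equiv.sum_comp (Function.Involutive.toPerm (chgB I b b') chgB_chgB)]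
      exact sum_congr rfl fun σ _ => if_congr outB_chgB rfl rfl
    rw [gibbs_b (M := M) hq hΛ (by omega) b F hF, hsum, hsum]
    refine Eq.trans ?_ (mul_div_mul_left _ _ hc0)
    rw [mul_sum, mul_sum]
    refine congrArg₂ (· / ·) (sum_congr rfl fun σ _ => ?_) (sum_congr rfl fun σ _ => ?_)
    · split_ifs with h
      · rw [hw σ h, hF (per M (chgB I b b' σ)) (per M σ) fun v hv => ?_]
        · ring
        · have : prj M v ∈ I := mem_image_of_mem _ hv
          simp [I1.per_eq, chgB, dif, this]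
      · rw [mul_zero]
    · split_ifs with h
      · exact hw σ h
      · rw [mul_zero]

end Vale.Agent.P144Z
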